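import Vale.Agent.P235.H56.Defs

/-!
# Quasi-4-connected graphs: definition (helper350)
-/

set_option autoImplicit false

namespace Vale.Agent.P235.H350

open SimpleGraph Vale.Agent.P235.H56

/-- `G` is quasi-4-connected: it is 3-connected, and one side of every separation of order three
has at most one vertex (`S` has three vertices; every vertex off `S` is on the side `C` or on the
side `D`, and no edge joins `C` and `D`). -/
def QuasiFour {V : Type} (G : SimpleGraph V) : Prop :=
  Conn3 G ∧ ∀ S C D : Set V, S.ncard = 3 → Disjoint C D → Disjoint C S → Disjoint D S →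
    (∀ v, v ∈ C ∨ v ∈ D ∨ v ∈ S) → (∀ u ∈ C, ∀ v ∈ D, ¬ G.Adj u v) → C.ncard ≤ 1 ∨ D.ncard ≤ 1

end Vale.Agent.P235.H350
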