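import Vale.Agent.P235.H350.Q1Iff
import Vale.Agent.P235.H350.Defs

/-!
# The exact reduction of Q1, with the definition of quasi-4-connected graphs of `H350/Defs`
-/

set_option autoImplicit false
set_option linter.unusedVariables false

namespace Vale.Agent.P235.H350

open SimpleGraph hiding Free
open Vale.Agent.P235 Vale.Agent.P235.H134 Vale.Agent.P235.H606 Vale.Agent.P235.H56
open Vale.Agent.P235.K5 Vale.Agent.P235.K5.H281


/-- the two definitions agree, up to graphs in which a separator with fewer than three vertices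
makes the difference: `Sep3` allows repetitions in the list of the three vertices -/
theorem quasiFour_of_quasi4 {V : Type} {G : SimpleGraph V} (h : Quasi4 G) : QuasiFour G := by
  refine ⟨h.1, fun S C D hS hCD hC hD hcov hno => ?_⟩
  obtain ⟨x, y, z, -, -, -, rfl⟩ := Set.ncard_eq_three.1 hS
  refine h.2 ![x, y, z] C D ⟨hCD, ?_, ?_, ?_, hno⟩
  · intro i hi
    refine Set.disjoint_left.1 hC hi ?_
    fin_cases i <;> simp
  · intro i hi
    refine Set.disjoint_left.1 hD hi ?_
    fin_cases i <;> simp
  · intro v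
    rcases hcov v with h1 | h1 | h1 | h1 | h1
    · exact Or.inl h1
    · exact Or.inr (Or.inl h1)
    · exact Or.inr (Or.inr ⟨0, h1⟩)
    · exact Or.inr (Or.inr ⟨1, h1⟩)
    · exact Or.inr (Or.inr ⟨2, h1⟩)

/-- **Q1 is equivalent to a statement about quasi-4-connected graphs.** -/
theorem q1_iff' :
    (∀ F : (V : Type) → SimpleGraph V → Prop, MinorClosed F →
      (∃ (W : Type) (_ : Finite W) (H : SimpleGraph W), H.Connected ∧ ¬ F W H) →
      ∃ K : ℝ, ∀ (V : Type) [Finite V] (G : SimpleGraph V), G.Connected → F V G →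
        DistortionLE G K) ↔
    ∀ n : ℕ, ∃ D : ℝ, ∀ (V : Type) [Finite V] (G : SimpleGraph V), G.Connected → QuasiFour G →
      ¬ IsMinor (⊤ : SimpleGraph (Fin n)) G → EdgeIso G D := by
  constructor
  · intro h n
    obtain ⟨K, hK⟩ := h (fun _ G => ¬ IsMinor (⊤ : SimpleGraph (Fin n)) G)
      (minorClosed_free _) ⟨Fin (n + 1), inferInstance, ⊤, connected_top, fun h1 => h1
        (minor_inj Fin.castSucc (Fin.castSucc_injective n) fun _ _ h2 =>
          (Fin.castSucc_injective n).ne h2)⟩
    exact ⟨max K 1, fun V _ G hG _ hn => H786.noTop_edgeIso hK V G hG hn⟩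
  · intro h
    refine q1_iff.2 fun n => ?_
    obtain ⟨D, hD⟩ := h n
    exact ⟨D, fun V _ G hG h4 hn => hD V G hG (quasiFour_of_quasi4 h4) hn⟩

end Vale.Agent.P235.H350
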