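import Vale.Agent.P235.K5.EX.H452.All
import Vale.Agent.P235.K5.H281.Q4
import Vale.Agent.P235.K5.H439.Small
import Vale.Agent.P235.H786.K5Edge
import Vale.Agent.P235.H134.Grid.MinorRow

/-!
# An exact reduction of question Q1 to quasi-4-connected graphs (helper350)
-/

set_option autoImplicit false
set_option linter.unusedVariables false

namespace Vale.Agent.P235.H350

open SimpleGraph hiding Free
open Vale.Agent.P235 Vale.Agent.P235.H134 Vale.Agent.P235.H606 Vale.Agent.P235.H56
open Vale.Agent.P235.K5 Vale.Agent.P235.K5.H281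

/-- `c₁(G)` is bounded if all connected quasi-4-connected minors of `G` are `EdgeIso D`. -/
theorem of_quasi4 (D : ℝ) : ∃ K : ℝ, ∀ (V : Type) [Finite V] (G : SimpleGraph V), G.Connected →
    (∀ (W : Type) [Finite W] (H : SimpleGraph W), H.Connected → Quasi4 H → IsMinor H G →
      EdgeIso H D) → DistortionLE G K := by
  obtain ⟨c, hc, hc1, hs⟩ := K5.H439.small_edgeExact 3
  have hD : 0 < max D 1 := lt_max_of_lt_right one_pos
  have hc' : 0 < min c (1 / max D 1) := lt_min hc (by positivity)
  obtain ⟨K, -, hK⟩ := K5.EX.H452.ex (min c (1 / max D 1)) hc' ((min_le_left _ _).trans hc1)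
  refine ⟨K, fun V _ G hG h => ?_⟩
  obtain ⟨H, hGH, n, B, hB, hP⟩ := q4Q (fun _ H => EdgeIso H D) V G hG
    (fun W _ K' h1 h2 h3 => h W K' h1 h2 h3)
  refine hK V G H hGH hG ⟨n, B, hB, fun t ht => ?_⟩
  obtain ⟨h1, h2, -⟩ := hP t ht
  refine ⟨h1, ?_⟩
  rcases h2 with h2 | h2
  · exact (hs _ _ h2).mono (min_le_left _ _)
  · exact (EdgeIso.edgeExact hD fun _ => ST.H626.EdgeIso.mono' h2 (le_max_left _ _)).mono
      (min_le_right _ _)

theorem minor_inj {V W : Type} {G : SimpleGraph V} {H : SimpleGraph W} (φ : V → W)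
    (hφ : Function.Injective φ) (h : ∀ x y, G.Adj x y → H.Adj (φ x) (φ y)) : IsMinor G H := by
  refine ⟨fun x => {φ x}, fun x => H56.conn_single _ _, fun x y hxy => ?_, fun x y hxy =>
    ⟨_, rfl, _, rfl, h x y hxy⟩⟩
  rw [Set.disjoint_singleton]
  exact fun h' => hxy (hφ h')

/-- the graphs without a minor `H` are a minor-closed family -/
theorem minorClosed_free {U : Type} (H : SimpleGraph U) :
    MinorClosed fun _ G => ¬ IsMinor H G where
  iso := fun V W _ _ G G' ⟨e⟩ h h' => h (minor_trans h' (minor_iso e))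
  deleteVertex := fun V _ G v _ h h' => h (minor_trans h'
    (minor_inj Subtype.val Subtype.val_injective fun _ _ h1 => h1))
  deleteEdge := fun V _ G e _ _ h h' => h (minor_trans h'
    (minor_inj id Function.injective_id fun _ _ h1 => deleteEdges_le _ h1))
  contract := fun V _ G u v huv _ h h' => h (minor_trans h' (contract_minor huv))

/-- **Q1 is equivalent to a statement about quasi-4-connected graphs.** -/
theorem q1_iff :
    (∀ F : (V : Type) → SimpleGraph V → Prop, MinorClosed F →
      (∃ (W : Type) (_ : Finite W) (H : SimpleGraph W), H.Connected ∧ ¬ F W H) →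
      ∃ K : ℝ, ∀ (V : Type) [Finite V] (G : SimpleGraph V), G.Connected → F V G →
        DistortionLE G K) ↔
    ∀ n : ℕ, ∃ D : ℝ, ∀ (V : Type) [Finite V] (G : SimpleGraph V), G.Connected → Quasi4 G →
      ¬ IsMinor (⊤ : SimpleGraph (Fin n)) G → EdgeIso G D := by
  constructor
  · intro h n
    obtain ⟨K, hK⟩ := h (fun _ G => ¬ IsMinor (⊤ : SimpleGraph (Fin n)) G)
      (minorClosed_free _) ⟨Fin (n + 1), inferInstance, ⊤, connected_top, fun h1 => h1
        (minor_inj Fin.castSucc (Fin.castSucc_injective n) fun _ _ h2 =>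
          (Fin.castSucc_injective n).ne h2)⟩
    exact ⟨max K 1, fun V _ G hG _ hn => H786.noTop_edgeIso hK V G hG hn⟩
  · rintro h F hF ⟨W, _, H, hH, hn⟩
    obtain ⟨D, hD⟩ := h (Nat.card W)
    obtain ⟨K, hK⟩ := of_quasi4 D
    refine ⟨K, fun V _ G hG hFG => hK V G hG fun W' _ H' h1 h2 h3 => hD W' H' h1 h2 fun h4 => ?_⟩
    have e := Finite.equivFin W
    exact hn (H134.minor F hF V W G H hG hH (minor_trans (minor_inj e e.injective fun _ _ h5 =>
      e.injective.ne h5.ne) (minor_trans h4 h3)) hFG)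

end Vale.Agent.P235.H350
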